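import Mathlib

/-!
# P235: gluing metric spaces at a point does not increase the `ℓ_1` distortion

`EmbedsL1 S C` says that the subset `S` of a (pseudo)metric space embeds into a
finite-dimensional `ℓ_1` space with distortion at most `C`.  If two subsets `A` and `B` share a
point `v` and `d(a, b) = d(a, v) + d(v, b)` for all `a ∈ A`, `b ∈ B`, then an embedding of `A`
and an embedding of `B` combine to an embedding of `A ∪ B` with the same distortion.
-/

namespace Vale.Agent.Lib.P235.H7

/-- The subset `S` embeds into a finite-dimensional `ℓ_1` space with distortion at most `C`: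
there are a finite index type `ι` and a map `f` into `ι → ℝ` such that
`d(x, y) ≤ ∑ i, |f x i - f y i| ≤ C * d(x, y)` for all `x, y ∈ S`. -/
def EmbedsL1 {X : Type*} [PseudoMetricSpace X] (S : Set X) (C : ℝ) : Prop :=
  ∃ (ι : Type) (_ : Fintype ι) (f : X → ι → ℝ),
    ∀ x ∈ S, ∀ y ∈ S,
      dist x y ≤ ∑ i, |f x i - f y i| ∧ ∑ i, |f x i - f y i| ≤ C * dist x y

theorem embeds_glue {X : Type*} [PseudoMetricSpace X] (A B : Set X) (C : ℝ) (v : X)
    (hvA : v ∈ A) (hvB : v ∈ B)
    (hglue : ∀ a ∈ A, ∀ b ∈ B, dist a b = dist a v + dist v b)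
    (hA : EmbedsL1 A C) (hB : EmbedsL1 B C) : EmbedsL1 (A ∪ B) C := by
  classical
  obtain ⟨ι, instι, f, hf⟩ := hA
  obtain ⟨κ, instκ, g, hg⟩ := hB
  refine ⟨ι ⊕ κ, inferInstance,
    fun x => Sum.elim (fun i => if x ∈ A then f x i - f v i else 0)
      (fun j => if x ∈ A then 0 else g x j - g v j), ?_⟩
  intro x hx y hy
  simp only [Fintype.sum_sum_type, Sum.elim_inl, Sum.elim_inr]
  by_cases hxA : x ∈ A <;> by_cases hyA : y ∈ A
  · simp only [hxA, hyA, if_true, sub_self, abs_zero, Finset.sum_const_zero, add_zero]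
    have e : ∀ i, |f x i - f v i - (f y i - f v i)| = |f x i - f y i| := fun i => by
      congr 1
      ring
    simp only [e]
    exact hf x hxA y hyA
  · have hyB : y ∈ B := hy.resolve_left hyA
    simp only [hxA, hyA, if_true, if_false, sub_zero, zero_sub, abs_neg]
    have h1 := hf x hxA v hvA
    have h2 := hg v hvB y hyB
    have e2 : ∀ j, |g y j - g v j| = |g v j - g y j| := fun j => abs_sub_comm _ _
    simp only [e2]
    rw [hglue x hxA y hyB, mul_add]
    exact ⟨by linarith [h1.1, h2.1], by linarith [h1.2, h2.2]⟩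
  · have hxB : x ∈ B := hx.resolve_left hxA
    simp only [hxA, hyA, if_true, if_false, sub_zero, zero_sub, abs_neg]
    have h1 := hf y hyA v hvA
    have h2 := hg x hxB v hvB
    have hd : dist x y = dist y v + dist x v := by
      rw [dist_comm x y, hglue y hyA x hxB, dist_comm v x]
    rw [hd, mul_add]
    exact ⟨by linarith [h1.1, h2.1], by linarith [h1.2, h2.2]⟩
  · have hxB : x ∈ B := hx.resolve_left hxA
    have hyB : y ∈ B := hy.resolve_left hyA
    simp only [hxA, hyA, if_false, sub_self, abs_zero, Finset.sum_const_zero, zero_add]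
    have e : ∀ j, |g x j - g v j - (g y j - g v j)| = |g x j - g y j| := fun j => by
      congr 1
      ring
    simp only [e]
    exact hg x hxB y hyB

/-- A set with at most two points embeds isometrically into the real line. -/
theorem embeds_pair {X : Type*} [PseudoMetricSpace X] (S : Set X) (p q : X)
    (hS : S ⊆ {p, q}) : EmbedsL1 S 1 := by
  refine ⟨Unit, inferInstance, fun x _ => dist x p, ?_⟩
  intro x hx y hy
  simp only [Finset.univ_unique, Finset.sum_singleton, one_mul]
  have hx' := hS hx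
  have hy' := hS hy
  simp only [Set.mem_insert_iff, Set.mem_singleton_iff] at hx' hy'
  rcases hx' with rfl | rfl <;> rcases hy' with rfl | rfl
  · simp
  · simp [dist_comm]
  · simp
  · simp

theorem embeds_chain {X : Type*} [PseudoMetricSpace X] (C : ℝ) (A : ℕ → Set X) (m : ℕ)
    (hemb : ∀ j ≤ m, EmbedsL1 (A j) C)
    (hglue : ∀ j, 1 ≤ j → j ≤ m → ∃ v ∈ A j, (∃ i < j, v ∈ A i) ∧
      ∀ a ∈ A j, ∀ i < j, ∀ b ∈ A i, dist a b = dist a v + dist v b) :
    EmbedsL1 {x | ∃ j ≤ m, x ∈ A j} C := by
  induction m with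
  | zero =>
    have h0 : {x | ∃ j ≤ 0, x ∈ A j} = A 0 := by
      ext x
      simp
    rw [h0]
    exact hemb 0 le_rfl
  | succ m ih =>
    have ih' := ih (fun j hj => hemb j (by omega)) (fun j h1 hj => hglue j h1 (by omega))
    obtain ⟨v, hvA, ⟨i, hi, hvi⟩, hg⟩ := hglue (m + 1) (by omega) le_rfl
    have hset : {x | ∃ j ≤ m + 1, x ∈ A j} = A (m + 1) ∪ {x | ∃ j ≤ m, x ∈ A j} := by
      ext x
      constructor
      · rintro ⟨j, hj, hx⟩
        rcases Nat.lt_or_ge j (m + 1) with h | h
        · exact Or.inr ⟨j, by omega, hx⟩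
        · have hjm : j = m + 1 := by omega
          subst hjm
          exact Or.inl hx
      · rintro (hx | ⟨j, hj, hx⟩)
        · exact ⟨m + 1, le_rfl, hx⟩
        · exact ⟨j, by omega, hx⟩
    rw [hset]
    exact embeds_glue (A (m + 1)) {x | ∃ j ≤ m, x ∈ A j} C v hvA ⟨i, by omega, hvi⟩
      (fun a ha b hb => by
        obtain ⟨j, hj, hbj⟩ := hb
        exact hg a ha j (by omega) b hbj)
      (hemb (m + 1) le_rfl) ih'

end Vale.Agent.Lib.P235.H7
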